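import Vale.Agent.P301Z.Df.Defs

/-!
# P301, block KUR: an adapted basis
-/

open scoped Matrix
open Vale.Agent.P301Z.Lat

noncomputable section

namespace Vale.Agent.P301Z.Df

namespace BasH

variable {r : ℕ} (q : Matrix (Fin r) (Fin r) ℤ)

/-- the complex form as a linear map of the second variable -/
def lC (u : Fin r → ℂ) : (Fin r → ℂ) →ₗ[ℂ] ℂ where
  toFun v := qC q u v
  map_add' v w := by
    simp only [qC, Pi.add_apply, mul_add, Finset.sum_add_distrib]
  map_smul' c v := by
    simp only [qC, Pi.smul_apply, smul_eq_mul, RingHom.id_apply, Finset.mul_sum]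
    exact Finset.sum_congr rfl fun i _ => Finset.sum_congr rfl fun j _ => by ring

theorem lC_apply (u v : Fin r → ℂ) : lC q u v = qC q u v := rfl

theorem qC_symm (hq : qᵀ = q) (u v : Fin r → ℂ) : qC q u v = qC q v u := by
  unfold qC
  rw [Finset.sum_comm]
  refine Finset.sum_congr rfl fun i _ => Finset.sum_congr rfl fun j _ => ?_
  have h : q j i = q i j := by
    have h0 := congrFun (congrFun hq i) j
    rwa [Matrix.transpose_apply] at h0
  rw [h, mul_comm (u j)]

theorem qC_star (u v : Fin r → ℂ) : qC q (star u) (star v) = star (qC q u v) := by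
  simp [qC]

theorem star_rc (z : Fin r → ℝ) : star (rc z) = rc z := by
  funext i
  simp [rc]

theorem qC_rc (x y : Fin r → ℝ) : qC q (rc x) (rc y) = (qR q x y : ℂ) := by
  simp [qC, qR, rc]

/-- the real linear map whose kernel is the orthogonal complement -/
def lR (p : Fin r → ℂ) (k : Fin r → ℝ) : (Fin r → ℝ) →ₗ[ℝ] ℂ × ℝ where
  toFun z := (qC q p (rc z), qR q k z)
  map_add' v w := by
    simp only [qC, qR, rc, Pi.add_apply, Complex.ofReal_add, mul_add, Finset.sum_add_distrib,
      Prod.mk_add_mk]
  map_smul' c v := by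
    simp only [qC, qR, rc, Pi.smul_apply, smul_eq_mul, RingHom.id_apply, Prod.smul_mk,
      Complex.real_smul, Finset.mul_sum, Complex.ofReal_mul, Prod.mk.injEq]
    refine ⟨?_, ?_⟩
    · exact Finset.sum_congr rfl fun i _ => Finset.sum_congr rfl fun j _ => by ring
    · exact Finset.sum_congr rfl fun i _ => Finset.sum_congr rfl fun j _ => by ring

theorem rank_le (p : Fin r → ℂ) (k : Fin r → ℝ) :
    r ≤ Module.finrank ℝ (LinearMap.ker (lR q p k)) + 3 := by
  have h1 := LinearMap.finrank_range_add_finrank_ker (lR q p k)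
  have h2 : Module.finrank ℝ (LinearMap.range (lR q p k)) ≤ Module.finrank ℝ (ℂ × ℝ) :=
    Submodule.finrank_le _
  rw [Module.finrank_prod, Complex.finrank_real_complex, Module.finrank_self] at h2
  rw [Module.finrank_fin_fun] at h1
  omega

theorem indep_rc {m : ℕ} (e : Fin m → Fin r → ℝ) (he : LinearIndependent ℝ e)
    (c : Fin m → ℂ) (hc : ∑ i, c i • rc (e i) = 0) (i : Fin m) : c i = 0 := by
  rw [Fintype.linearIndependent_iff] at he
  have h0 : ∀ j, ∑ i, c i * (e i j : ℂ) = 0 := fun j => by
    have h := congrFun hc j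
    simpa [rc, Finset.sum_apply] using h
  have h1 : ∑ i, (c i).re • e i = 0 := by
    funext j
    have h := congrArg Complex.re (h0 j)
    simpa [Finset.sum_apply] using h
  have h2 : ∑ i, (c i).im • e i = 0 := by
    funext j
    have h := congrArg Complex.im (h0 j)
    simpa [Finset.sum_apply] using h
  exact Complex.ext (he _ h1 i) (he _ h2 i)

/-- the adapted family -/
def fam {m : ℕ} (p : Fin r → ℂ) (k : Fin r → ℝ) (e : Fin m → Fin r → ℝ) :
    Fin 3 ⊕ Fin m → Fin r → ℂ :=
  Sum.elim ![p, star p, rc k] fun i => rc (e i)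

theorem indep_fam {m : ℕ} (p : Fin r → ℂ) (k : Fin r → ℝ) (e : Fin m → Fin r → ℝ)
    (hq : qᵀ = q) (hpp : qC q p p = 0) (hps : 0 < (qC q p (star p)).re)
    (hpk : qC q p (rc k) = 0) (hkk : 0 < qR q k k) (he : LinearIndependent ℝ e)
    (hpe : ∀ i, qC q p (rc (e i)) = 0) (hke : ∀ i, qR q k (e i) = 0) :
    LinearIndependent ℂ (fam p k e) := by
  rw [Fintype.linearIndependent_iff]
  intro c hc
  have hA : qC q p (star p) ≠ 0 := fun h => by simp [h] at hps
  have hss : qC q (star p) (star p) = 0 := by rw [qC_star, hpp, star_zero]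
  have hsk : qC q (star p) (rc k) = 0 := by rw [← star_rc, qC_star, hpk, star_zero]
  have hse : ∀ i, qC q (star p) (rc (e i)) = 0 := fun i => by
    rw [← star_rc, qC_star, hpe, star_zero]
  have hke' : ∀ i, qC q (rc k) (rc (e i)) = 0 := fun i => by rw [qC_rc, hke, Complex.ofReal_zero]
  have hkk' : qC q (rc k) (rc k) ≠ 0 := by
    rw [qC_rc]
    exact Complex.ofReal_ne_zero.2 hkk.ne'
  have hc' : c (.inl 0) • p + c (.inl 1) • star p + c (.inl 2) • rc k +
      ∑ i, c (.inr i) • rc (e i) = 0 := by
    rw [← hc, Fintype.sum_sum_type, Fin.sum_univ_three]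
    rfl
  have key : ∀ u : Fin r → ℂ, c (.inl 0) * qC q u p + c (.inl 1) * qC q u (star p) +
      c (.inl 2) * qC q u (rc k) + ∑ i, c (.inr i) * qC q u (rc (e i)) = 0 := fun u => by
    have h := congrArg (lC q u) hc'
    simp only [map_add, map_smul, map_sum, map_zero, smul_eq_mul, lC_apply] at h
    exact h
  have h0 : c (.inl 0) = 0 := by
    have h := key (star p)
    simp only [hss, hsk, hse, mul_zero, add_zero, Finset.sum_const_zero] at h
    rw [qC_symm q hq] at h
    exact (mul_eq_zero.1 h).resolve_right hA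
  have h1 : c (.inl 1) = 0 := by
    have h := key p
    simp only [hpp, hpk, hpe, mul_zero, add_zero, zero_add, Finset.sum_const_zero] at h
    exact (mul_eq_zero.1 h).resolve_right hA
  have h2 : c (.inl 2) = 0 := by
    have h := key (rc k)
    simp only [h0, h1, hke', zero_mul, mul_zero, add_zero, zero_add, Finset.sum_const_zero] at h
    exact (mul_eq_zero.1 h).resolve_right hkk'
  rw [h0, h1, h2, zero_smul, zero_smul, zero_smul, zero_add, zero_add, zero_add] at hc'
  rintro (i | i)
  · fin_cases i
    · exact h0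
    · exact h1
    · exact h2
  · exact indep_rc e he (fun i => c (.inr i)) hc' i

end BasH

open BasH in
theorem bas : BAS := by
  intro r q p k hq hpp hps hpk hkk
  let b := Module.finBasis ℝ (LinearMap.ker (lR q p k))
  let e : Fin (Module.finrank ℝ (LinearMap.ker (lR q p k))) → Fin r → ℝ := fun i => (b i).1
  have he : LinearIndependent ℝ e :=
    b.linearIndependent.map' (LinearMap.ker (lR q p k)).subtype (Submodule.ker_subtype _)
  have hm : ∀ i, lR q p k (e i) = 0 := fun i => (b i).2
  have hpe : ∀ i, qC q p (rc (e i)) = 0 := fun i => congrArg Prod.fst (hm i)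
  have hke : ∀ i, qR q k (e i) = 0 := fun i => congrArg Prod.snd (hm i)
  have hI := indep_fam q p k e hq hpp hps hpk hkk he hpe hke
  have h1 := hI.fintype_card_le_finrank
  have h2 := rank_le q p k
  rw [Module.finrank_fin_fun, Fintype.card_sum, Fintype.card_fin, Fintype.card_fin] at h1
  have h3 : Fintype.card (Fin 3 ⊕ Fin (Module.finrank ℝ (LinearMap.ker (lR q p k)))) =
      Module.finrank ℂ (Fin r → ℂ) := by
    rw [Module.finrank_fin_fun, Fintype.card_sum, Fintype.card_fin, Fintype.card_fin]
    omega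
  refine ⟨_, e, basisOfLinearIndependentOfCardEqFinrank hI h3, by omega, hpe, ?_, ?_, ?_,
    fun i => ?_⟩ <;> rw [coe_basisOfLinearIndependentOfCardEqFinrank] <;> rfl

end Vale.Agent.P301Z.Df
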