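import Vale.Agent.P301Z.Df.Defs

/-!
# P301, block KUR: the one-forms `i ∂̄(u + i v)`
-/

open scoped Manifold ContDiff ComplexOrder Topology Matrix
open Filter Metric Complex
open Vale.Agent.P272.K Vale.Agent.P299.IX Vale.Agent.P299.IX.Fock
open Vale.Agent.P281Z (Mf)
open Vale.Agent.P281Z.Hg
open Vale.Agent.P301.H599 (ddc)
open Vale.Agent.P301Z.Lat
open Vale.Agent.P301Z.Ab (JSm)

noncomputable section

namespace Vale.Agent.P301Z.Df

namespace GamX

variable {d m : ℕ} {F : Cm d → ℂ} {z : Cm d}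

/-- the form `i ∂̄ F` -/
def gb (F : Cm d → ℂ) (z : Cm d) : Fo d := ∑ k, (I * dr (ah k) F z) • (eps (ah k) *ᵥ ev ∅)

theorem pm_ev : pm d 0 *ᵥ ev ∅ = ev ∅ := by
  funext K
  by_cases h : K = ∅ <;> simp [pm, Matrix.mulVec_diagonal, ev, h, tp]

theorem gb_eq (hF : DifferentiableAt ℝ F z) :
    I • (pm d 0 *ᵥ dT (fun y => F y • (ev ∅ : Fo d)) z) = gb F z := by
  rw [k1aT.fun_mul hF (differentiableAt_const _), k1aT.const, smul_zero, add_zero, epsV,
    Ka.sum_idx, Matrix.mulVec_mulVec, Matrix.mul_add, Matrix.mul_sum, Matrix.mul_sum]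
  simp only [Matrix.mul_smul, f1b.pm0_hl, f1b.pm_ah, smul_zero, Finset.sum_const_zero, zero_add,
    Matrix.sum_mulVec, Matrix.smul_mulVec, ← Matrix.mulVec_mulVec, pm_ev, gb, Finset.smul_sum,
    smul_smul]

theorem dg_gb : dg 1 *ᵥ gb F z = gb F z := by
  have h0 : (dg 0 : Fm d) *ᵥ ev ∅ = ev ∅ := by rw [dg, dgl_ev]; simp
  simp only [gb, Matrix.mulVec_sum, Matrix.mulVec_smul, Matrix.mulVec_mulVec, dg_eps 0]
  simp only [← Matrix.mulVec_mulVec, h0]

theorem dT_gb (hF : ContDiffAt ℝ ∞ F z) :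
    dT (gb F) z = Lw (Matrix.of fun j k => dr (hl j) (dr (ah k) F) z) *ᵥ ev ∅ := by
  have h1 : ∀ k, DifferentiableAt ℝ (dr (ah k) F) z := fun k =>
    (Ka.dr_smooth hF).differentiableAt (by simp)
  have h2 : ∀ c, Dv c (gb F) z = ∑ k, (I * dr c (dr (ah k) F) z) • (eps (ah k) *ᵥ ev ∅) :=
    fun c => (Ka.Dv_sum _ fun k _ => ((h1 k).const_mul I).smul_const _).trans
      (Finset.sum_congr rfl fun k _ => by
        rw [Ka.Dv_fmul ((h1 k).const_mul I) (differentiableAt_const _), Ka.Dv_const, smul_zero,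
          add_zero, Ka.dr_cmul I (h1 k)])
  simp only [dT, h2, Matrix.mulVec_sum, Matrix.mulVec_smul, Matrix.mulVec_mulVec]
  rw [Ka.sum_idx, Ka.anti (F := fun j k => (I * dr (ah j) (dr (ah k) F) z) •
    ((eps (ah j) * eps (ah k)) *ᵥ (ev ∅ : Fo d))) fun j k => by
      rw [eps_eps, Ka.dr_comm _ _ hF, Matrix.neg_mulVec, smul_neg], add_zero]
  simp only [Lw, Matrix.sum_mulVec, Matrix.smul_mulVec, Matrix.of_apply]

theorem hess {a b : Cm d → ℝ} (ha : ContDiffAt ℝ ∞ a z) (hb : ContDiffAt ℝ ∞ b z) :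
    cHess a z + I • cHess b z =
      Matrix.of fun j k => dr (hl j) (dr (ah k) fun y => (a y : ℂ) + I * b y) z := by
  have ha' : ContDiffAt ℝ ∞ (fun y => (a y : ℂ)) z := ofRealCLM.contDiff.contDiffAt.comp z ha
  have hb' : ContDiffAt ℝ ∞ (fun y => (b y : ℂ)) z := ofRealCLM.contDiff.contDiffAt.comp z hb
  ext j k
  have h1 : (dr (ah k) fun y => (a y : ℂ) + I * b y) =ᶠ[𝓝 z]
      fun y => dr (ah k) (fun y => (a y : ℂ)) y + I * dr (ah k) (fun y => (b y : ℂ)) y := by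
    filter_upwards [(ha'.of_le (show (1 : WithTop ℕ∞) ≤ ∞ by norm_cast)).eventually (by simp),
      (hb'.of_le (show (1 : WithTop ℕ∞) ≤ ∞ by norm_cast)).eventually (by simp)] with y h h'
    rw [Ka.dr_add (h.differentiableAt (by simp)) ((h'.differentiableAt (by simp)).const_mul I),
      Ka.dr_cmul I (h'.differentiableAt (by simp))]
  have h2 := (Ka.dr_smooth (c := ah k) ha').differentiableAt (by simp)
  have h3 := (Ka.dr_smooth (c := ah k) hb').differentiableAt (by simp)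
  rw [Matrix.of_apply, Ka.dr_congr h1, Ka.dr_add h2 (h3.const_mul I), Ka.dr_cmul I h3, Ka.dr_hl,
    Ka.dr_ah]
  rfl

variable {V : Mf d}

theorem atc (x : V.X) : At (chartAt (Cm d) x) x := ⟨chart_mem_atlas _ x, mem_chart_source _ x⟩

/-- the global form `i ∂̄ f` -/
theorem exists_gb {f : V.X → ℂ}
    (hf : ∀ (e : Chart d V.X) x, At e x → ContDiffAt ℝ ∞ (fun z => f (e.symm z)) (e x)) :
    ∃ g : Fs V, ∀ e x, At e x → vl g e (e x) = gb (fun z => f (e.symm z)) (e x) := by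
  obtain ⟨Z, hZ⟩ := (g1T d V.X).mkf (fun e z => f (e.symm z) • ev ∅)
    (fun e x h => (hf e x h).smul_const _) fun e e' x h h' => by
      rw [h.left_inv, h'.left_inv, Matrix.mulVec_smul, lam_ev_empty]
  obtain ⟨T, hT⟩ := (g1T d V.X).op (fun _ _ => pm d 0) ⟨fun e x _ i j => contDiffAt_const,
    fun e e' x h h' => by rw [(g1T d V.X).jt_eq e e' x h h', f1b.pm_blk]⟩
  refine ⟨I • T ((dR V).d Z), fun e x h => ?_⟩
  rw [vl_smul, hT _ e x h, (dR_real V).d Z e x h, k1aT.congr (hZ e x h),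
    gb_eq ((hf e x h).differentiableAt (by simp))]

end GamX

open GamX

theorem gam_of (hd : HDZ) : GAM := by
  intro d m V u v N hN hu hv hol
  have su : ∀ {u : Cm m → V.X → ℝ}, JSm (Cm d) u N → ∀ h ∈ N, ∀ (e : Chart d V.X) x, At e x →
      ContDiffAt ℝ ∞ (fun z => u h (e.symm z)) (e x) := fun hu h hh e x he =>
    (hu h hh e he.1 _ he.mem_target).comp (f := fun z => (h, z)) (e x)
      (contDiffAt_const.prodMk contDiffAt_id)
  have sF : ∀ h ∈ N, ∀ (e : Chart d V.X) x, At e x →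
      ContDiffAt ℝ ∞ (fun z => (u h (e.symm z) : ℂ) + I * v h (e.symm z)) (e x) :=
    fun h hh e x he => (ofRealCLM.contDiff.contDiffAt.comp _ (su hu h hh e x he)).add
      (contDiffAt_const.mul (ofRealCLM.contDiff.contDiffAt.comp _ (su hv h hh e x he)))
  have nb : ∀ h ∈ N, ∀ (e : Chart d V.X) x, At e x →
      ∀ᶠ q : Cm m × Cm d in 𝓝 (h, e x), q.1 ∈ N ∧ q.2 ∈ e.target := fun h hh e x he =>
    (hN.prod e.open_target).mem_nhds ⟨hh, he.mem_target⟩
  have jF : ∀ h ∈ N, ∀ (e : Chart d V.X) x, At e x → JH (fun q : Cm m × Cm d =>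
      (u q.1 (e.symm q.2) : ℂ) + I * v q.1 (e.symm q.2)) (h, e x) := fun h hh e x he => by
    filter_upwards [nb h hh e x he] with q hq
    exact ⟨(ofRealCLM.contDiff.contDiffAt.comp _ (hu _ hq.1 e he.1 _ hq.2)).add
      (contDiffAt_const.mul (ofRealCLM.contDiff.contDiffAt.comp _ (hv _ hq.1 e he.1 _ hq.2))),
      hol _ hq.1 _⟩
  have ex : ∀ h, ∃ g : Fs V, h ∈ N → ∀ e x, At e x → vl g e (e x) =
      gb (fun z => (u h (e.symm z) : ℂ) + I * v h (e.symm z)) (e x) := fun h => by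
    by_cases hh : h ∈ N
    · exact (exists_gb (f := fun x => (u h x : ℂ) + I * v h x) (sF h hh)).imp fun g hg _ => hg
    · exact ⟨0, fun k => absurd k hh⟩
  choose g hg using ex
  have hg' : ∀ h ∈ N, ∀ e ∈ atlas (Cm d) V.X, ∀ z ∈ e.target, vl (g h) e z =
      gb (fun z => (u h (e.symm z) : ℂ) + I * v h (e.symm z)) z := fun h hh e he z hz => by
    have := hg h hh e _ (At.of_target he hz)
    rwa [e.right_inv hz] at this
  refine ⟨g, ⟨fun t ht => (g1T d V.X).ext _ _ fun x => ⟨_, atc x, ?_⟩, fun t ht e x he => ?_,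
    fun t ht e x he => ?_⟩, fun h hh => ⟨fun h0 => (g1T d V.X).ext _ _ fun x => ⟨_, atc x, ?_⟩,
    fun e x he => ?_, fun e x he j k => ?_⟩⟩
  · rw [(dR_real V).dg 1 _ _ x (atc x), hg t ht _ x (atc x), dg_gb]
  · refine (ContDiffAt.sum (s := Finset.univ) fun k _ => (contDiffAt_const (c := I).mul
      (hd _ _ _ _ (jF t ht e x he) (ah k)).self_of_nhds.1).smul_const
        (eps (ah k) *ᵥ (ev ∅ : Fo d))).congr_of_eventuallyEq ?_
    filter_upwards [nb t ht e x he] with q hq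
    exact hg' _ hq.1 e he.1 _ hq.2
  · refine (DifferentiableAt.fun_sum (u := Finset.univ) fun k _ =>
      (((hd _ _ _ _ (jF t ht e x he) (ah k)).self_of_nhds.2).const_mul I).smul_const
        (eps (ah k) *ᵥ (ev ∅ : Fo d))).congr_of_eventuallyEq ?_
    filter_upwards [hN.mem_nhds ht] with t' ht'
    exact hg t' ht' e x he
  · rw [hg h hh _ x (atc x), vl_zero]
    simp only [gb, h0, Ka.dr_const, mul_zero, zero_smul, Finset.sum_const_zero]
  · have k1 : vl (g h) e =ᶠ[𝓝 (e x)]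
        gb fun z => (u h (e.symm z) : ℂ) + I * v h (e.symm z) :=
      he.nhds_target.mono fun z hz => hg' h hh e he.1 z hz
    rw [(dR_real V).d _ e x he, k1aT.congr k1, dT_gb (sF h hh e x he),
      ← hess (su hu h hh e x he) (su hv h hh e x he)]
    rfl
  · refine (hd _ _ _ _ (hd _ _ _ _ (jF h hh e x he) (ah k))
      (hl j)).self_of_nhds.2.congr_of_eventuallyEq ?_
    filter_upwards [hN.mem_nhds hh] with t ht
    exact congrFun (congrFun (hess (su hu t ht e x he) (su hv t ht e x he)) j) k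

end Vale.Agent.P301Z.Df
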