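import Vale.Agent.P301Z.Df.Defs
import Vale.Agent.P301Z.An.Cnn

/-!
# P301, block KUR: derivatives along the fibre stay holomorphic in the parameter
-/

open scoped ContDiff Topology
open Filter Complex
open Vale.Agent.P272.K
open Vale.Agent.P281Z.Hg
open Vale.Agent.P301Z.An.Cnn (hol_iff has_snd has_app)

noncomputable section

namespace Vale.Agent.P301Z.Df

variable {d b : ℕ} {q : Cm b × Cm d}

section

variable {F : Type} [NormedAddCommGroup F] [NormedSpace ℝ F] [NormedSpace ℂ F]
  {f g : Cm b × Cm d → F}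

theorem JH.add (hf : JH f q) (hg : JH g q) : JH (fun q' => f q' + g q') q := by
  filter_upwards [hf, hg] with q' h1 h2 using ⟨h1.1.add h2.1, h1.2.fun_add h2.2⟩

theorem JH.sub (hf : JH f q) (hg : JH g q) : JH (fun q' => f q' - g q') q := by
  filter_upwards [hf, hg] with q' h1 h2 using ⟨h1.1.sub h2.1, h1.2.fun_sub h2.2⟩

theorem JH.congr (hf : JH f q) (h : g =ᶠ[𝓝 q] f) : JH g q := by
  filter_upwards [hf, h.eventuallyEq_nhds] with q' h1 h2
  have c : ContinuousAt (fun t : Cm b => (t, q'.2)) q'.1 := by fun_prop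
  exact ⟨h1.1.congr_of_eventuallyEq h2, h1.2.congr_of_eventuallyEq (c.eventually h2)⟩

theorem JH.sum {ι : Type} (s : Finset ι) {f : ι → Cm b × Cm d → F} (h : ∀ i ∈ s, JH (f i) q) :
    JH (fun q' => ∑ i ∈ s, f i q') q := by
  filter_upwards [(eventually_all_finset s).2 h] with q' h1 using
    ⟨ContDiffAt.sum fun i hi => (h1 i hi).1, DifferentiableAt.fun_sum fun i hi => (h1 i hi).2⟩

end

theorem JH.mul {f g : Cm b × Cm d → ℂ} (hf : JH f q) (hg : JH g q) :
    JH (fun q' => f q' * g q') q := by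
  filter_upwards [hf, hg] with q' h1 h2 using ⟨h1.1.mul h2.1, h1.2.fun_mul h2.2⟩

theorem JH.const_mul {f : Cm b × Cm d → ℂ} (hf : JH f q) (c : ℂ) : JH (fun q' => c * f q') q := by
  filter_upwards [hf] with q' h1 using ⟨contDiffAt_const.mul h1.1, h1.2.const_mul c⟩

theorem jh_pi {κ : Type} [Fintype κ] {f : Cm b × Cm d → κ → ℂ} :
    JH f q ↔ ∀ i, JH (fun q' => f q' i) q := by
  refine ⟨fun h i => h.mono fun q' h1 =>
    ⟨contDiffAt_pi.1 h1.1 i, differentiableAt_pi.1 h1.2 i⟩, fun h => ?_⟩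
  filter_upwards [eventually_all.2 h] with q' h1 using
    ⟨contDiffAt_pi.2 fun i => (h1 i).1, differentiableAt_pi.2 fun i => (h1 i).2⟩

namespace Hdz

theorem full {f : Cm b × Cm d → ℂ} (hf : JH f q) (w : Cm b × Cm d) :
    JH (fun q' => fderiv ℝ f q' w) q := by
  filter_upwards [hf.eventually_nhds] with p hp
  have h0 := hp.self_of_nhds.1
  have h1 : ContDiffAt ℝ ∞ (fderiv ℝ f) p := h0.fderiv_right le_rfl
  have h2 := h1.differentiableAt (by simp)
  refine ⟨h1.clm_apply contDiffAt_const, (hol_iff (has_app h2 w).differentiableAt).2 fun a => ?_⟩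
  have h3 : (fun p => fderiv ℝ f p (I • a, 0)) =ᶠ[𝓝 p] fun p => I • fderiv ℝ f p (a, 0) :=
    hp.mono fun p' h => (hol_iff (h.1.differentiableAt (by simp))).1 h.2 a
  have h4 := (has_app h2 (I • a, 0)).unique
    (((has_app h2 (a, 0)).const_smul I).congr_of_eventuallyEq h3)
  have h5 := (h0.of_le (m := 2) (by norm_cast)).isSymmSndFDerivAt (by simp)
  rw [(has_app h2 w).fderiv, ContinuousLinearMap.flip_apply, ContinuousLinearMap.flip_apply,
    h5 _ w, h5 _ w]
  exact congrArg (fun L : Cm b × Cm d →L[ℝ] ℂ => L w) h4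

theorem dir {f : Cm b × Cm d → ℂ} (hf : JH f q) (v : Cm d) :
    JH (fun q' => fderiv ℝ (fun z => f (q'.1, z)) q'.2 v) q :=
  (full hf (0, v)).congr (hf.mono fun p h => by
    change fderiv ℝ (fun z => f (p.1, z)) p.2 v = fderiv ℝ f p (0, v)
    rw [(has_snd (h.1.differentiableAt (by simp))).fderiv]
    rfl)

end Hdz

theorem hdz : HDZ := by
  intro b d f q hf c
  induction c using Fin.addCases with
  | left j =>
    refine ((Hdz.dir hf (Pi.single j 1)).sub
      ((Hdz.dir hf (Pi.single j I)).const_mul I)).const_mul 2⁻¹ |>.congr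
        (Eventually.of_forall fun p => ?_)
    simp only [dr, Fin.addCases_left, dz, div_eq_inv_mul]
  | right j =>
    refine ((Hdz.dir hf (Pi.single j 1)).add
      ((Hdz.dir hf (Pi.single j I)).const_mul I)).const_mul 2⁻¹ |>.congr
        (Eventually.of_forall fun p => ?_)
    simp only [dr, Fin.addCases_right, dzb, div_eq_inv_mul]

end Vale.Agent.P301Z.Df
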