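import Vale.Agent.P301Z.Df.Defs

/-!
# P301, block KUR: the compatibility relation for complex parameters
-/

open scoped Manifold ContDiff ComplexOrder Topology Matrix
open Filter Metric Complex
open Vale.Agent.P272.K Vale.Agent.P299.IX Vale.Agent.P299.IX.Fock
open Vale.Agent.P301.H599 (IsSymplectic)
open Vale.Agent.P301.H450 (IsHK)
open Vale.Agent.P301Z.Cs (MF)

noncomputable section

namespace Vale.Agent.P301Z.Df

namespace Idt

theorem cHess_const_add {n : ℕ} (a : ℝ) (f : Cm n → ℝ) (z : Cm n) :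
    cHess (fun y => a + f y) z = cHess f z := by
  ext j k
  have e : (dzb k fun y => ((a + f y : ℝ) : ℂ)) = dzb k fun y => (f y : ℂ) := by
    funext y
    simp only [dzb, Complex.ofReal_add, fderiv_const_add]
  simp only [cHess, Matrix.of_apply, e]

theorem rel_star {d : ℕ} {s W : Matrix (Fin d) (Fin d) ℂ} {k : ℝ} (hs : sᵀ = -s)
    (hW : W.IsHermitian) (h : W * (sᴴ)⁻¹ * Wᵀ = (k : ℂ) • s) :
    Wᵀ * s⁻¹ * W = -(k : ℂ) • s.map star := by
  have h1 := congrArg Matrix.conjTranspose h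
  have e1 : (Wᵀ)ᴴ = Wᵀ := by
    ext i j
    exact hW.apply j i
  have e2 : sᴴ = -s.map star := by
    ext i j
    have : s j i = -s i j := congrFun (congrFun hs i) j
    simp [this]
  rw [Matrix.conjTranspose_mul, Matrix.conjTranspose_mul, e1, Matrix.conjTranspose_nonsing_inv,
    Matrix.conjTranspose_conjTranspose, hW.eq, Matrix.conjTranspose_smul, e2] at h1
  rw [Matrix.mul_assoc, h1]
  simp

/-- the identity theorem from the real points -/
theorem ident {m : ℕ} {ε : ℝ} {G : Cm m → ℂ} (hG : ∀ h ∈ ball (0 : Cm m) ε, DifferentiableAt ℂ G h)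
    (h0 : ∀ h ∈ ball (0 : Cm m) ε, (∀ i, (h i).im = 0) → G h = 0) {h : Cm m}
    (hh : h ∈ ball (0 : Cm m) (ε / 3)) : G h = 0 := by
  rw [mem_ball_zero_iff] at hh
  let a : Cm m := fun i => ((h i).re : ℂ)
  let b : Cm m := fun i => ((h i).im : ℂ)
  have ha : ‖a‖ ≤ ‖h‖ := (pi_norm_le_iff_of_nonneg (norm_nonneg _)).2 fun i => by
    simpa [a] using (Complex.abs_re_le_norm (h i)).trans (norm_le_pi_norm h i)
  have hb : ‖b‖ ≤ ‖h‖ := (pi_norm_le_iff_of_nonneg (norm_nonneg _)).2 fun i => by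
    simpa [b] using (Complex.abs_im_le_norm (h i)).trans (norm_le_pi_norm h i)
  have hm : ∀ z ∈ ball (0 : ℂ) 2, a + z • b ∈ ball (0 : Cm m) ε := by
    intro z hz
    rw [mem_ball_zero_iff] at hz ⊢
    have h1 : ‖a + z • b‖ ≤ ‖a‖ + ‖z‖ * ‖b‖ := (norm_add_le _ _).trans (by rw [norm_smul])
    have h2 : ‖z‖ * ‖b‖ ≤ 2 * ‖h‖ := mul_le_mul hz.le hb (norm_nonneg _) (by norm_num)
    linarith
  have hd : DifferentiableOn ℂ (fun z : ℂ => G (a + z • b)) (ball 0 2) := fun z hz =>
    ((hG _ (hm z hz)).comp z (by fun_prop)).differentiableWithinAt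
  have han := hd.analyticOnNhd isOpen_ball
  have hfr : ∃ᶠ z in 𝓝[≠] (0 : ℂ), G (a + z • b) = 0 := by
    have ht : Tendsto (fun t : ℝ => (t : ℂ)) (𝓝[≠] 0) (𝓝[≠] 0) := by
      refine tendsto_nhdsWithin_of_tendsto_nhds_of_eventually_within _ ?_ ?_
      · exact (Complex.continuous_ofReal.tendsto' 0 0 rfl).mono_left nhdsWithin_le_nhds
      · filter_upwards [self_mem_nhdsWithin] with t ht
        exact Complex.ofReal_ne_zero.2 ht
    refine ht.frequently (Eventually.frequently ?_)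
    have : ∀ᶠ t : ℝ in 𝓝[≠] 0, (t : ℂ) ∈ ball (0 : ℂ) 2 :=
      (ht.mono_right nhdsWithin_le_nhds).eventually (ball_mem_nhds 0 (by norm_num))
    filter_upwards [this] with t ht'
    exact h0 _ (hm _ ht') fun i => by simp [a, b]
  have hz := han.eqOn_zero_of_preconnected_of_frequently_eq_zero (convex_ball 0 2).isPreconnected
    (mem_ball_self (by norm_num)) hfr (show I ∈ ball (0 : ℂ) 2 by simp)
  have e : a + I • b = h := by
    funext i
    simp only [a, b, Pi.add_apply, Pi.smul_apply, smul_eq_mul]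
    rw [mul_comm, Complex.re_add_im]
  simpa [e] using hz

theorem diff_ent {d m : ℕ} {W : Cm m → Matrix (Fin d) (Fin d) ℂ} {h : Cm m}
    (hW : ∀ j k, DifferentiableAt ℂ (fun h' => W h' j k) h) (S : Matrix (Fin d) (Fin d) ℂ)
    (j k : Fin d) : DifferentiableAt ℂ (fun h' => ((W h')ᵀ * S * W h') j k) h := by
  simp only [Matrix.mul_apply, Matrix.transpose_apply]
  exact DifferentiableAt.fun_sum fun a _ =>
    (DifferentiableAt.fun_sum fun c _ => (hW c j).mul_const _).mul (hW a k)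

end Idt

open Idt in
/-- **IDT** -/
theorem idt : IDT := by
  intro d m X _ _ _ _ _ _ s w W ε hd hε hs hw h0 hD hR
  obtain ⟨x0⟩ : Nonempty X := inferInstance
  have hx0 : At (chartAt (Cm d) x0) x0 := ⟨chart_mem_atlas _ _, mem_chart_source _ _⟩
  set e0 := chartAt (Cm d) x0
  have real : ∀ h ∈ ball (0 : Cm m) ε, (∀ i, (h i).im = 0) → ∃ k : ℝ, ∀ e x, At e x →
      (W h e (e x))ᵀ * (s e (e x))⁻¹ * W h e (e x) = -(k : ℂ) • (s e (e x)).map star := by
    intro h hh hr
    obtain ⟨hK, c, hc⟩ := hR h hh hr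
    have pos : ∀ {u : MF d X}, IsKahler u → ∀ e x, At e x → 0 < (u e (e x)).det.re :=
      fun hu e x hx => (Complex.pos_iff.1 (hu.posDef e x hx).det_pos).1
    have hc0 : 0 < c := by
      have h1 := pos hK e0 x0 hx0
      rw [hc e0 x0 hx0] at h1
      exact (mul_pos_iff_of_pos_right (pos hw.kahler e0 x0 hx0)).1 h1
    have hric : P299.D.RicNonneg (W h) := by
      intro e x hx
      have e1 : P299.D.ric (W h) e (e x) = P299.D.ric w e (e x) := by
        rw [P299.D.ric, P299.D.ric,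
          ← cHess_const_add (Real.log c) (fun y => Real.log (w e y).det.re)]
        congr 1
        refine C2.cHess_congr ?_
        filter_upwards [e.open_target.mem_nhds (e.map_source hx.2)] with y hy
        have hy' : At e (e.symm y) := ⟨hx.1, e.map_target hy⟩
        have h1 := hc e _ hy'
        have h2 := pos hw.kahler e _ hy'
        rw [e.right_inv hy] at h1 h2
        rw [h1, Real.log_mul hc0.ne' h2.ne']
      rw [e1]
      exact hw.ric e x hx
    obtain ⟨k, hk⟩ := P301.H450.exists_isHK hs hK hric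
    exact ⟨k, fun e x hx => rel_star (hs.form.alt e x hx) (hK.posDef e x hx).isHermitian
      (hk.rel e x hx)⟩
  obtain ⟨j0, k0, hjk⟩ : ∃ j k, s e0 (e0 x0) j k ≠ 0 := by
    by_contra hn
    push Not at hn
    have : s e0 (e0 x0) = 0 := by ext j k; exact hn j k
    have hne : Nonempty (Fin d) := ⟨⟨0, hd⟩⟩
    exact hs.nondeg e0 x0 hx0 (by rw [this, Matrix.det_zero])
  have hst : star (s e0 (e0 x0) j0 k0) ≠ 0 := star_ne_zero.2 hjk
  let κ : Cm m → ℂ := fun h => -(((W h e0 (e0 x0))ᵀ * (s e0 (e0 x0))⁻¹ * W h e0 (e0 x0)) j0 k0) /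
    star (s e0 (e0 x0) j0 k0)
  have hκ : ∀ h ∈ ball (0 : Cm m) ε, DifferentiableAt ℂ κ h := fun h hh => by
    have := diff_ent (W := fun h' => W h' e0 (e0 x0)) (hD h hh e0 x0 hx0) (s e0 (e0 x0))⁻¹ j0 k0
    simp only [κ, div_eq_mul_inv]
    exact this.fun_neg.mul_const _
  have hκk : ∀ (h : Cm m) (k : ℂ), (W h e0 (e0 x0))ᵀ * (s e0 (e0 x0))⁻¹ * W h e0 (e0 x0) =
      -k • (s e0 (e0 x0)).map star → κ h = k := by
    intro h k hk
    simp only [κ, hk, Matrix.smul_apply, Matrix.map_apply, smul_eq_mul]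
    field_simp
  refine ⟨κ, hκk 0 1 ?_, fun h hh => ⟨?_, fun e x hx => ?_⟩⟩
  · rw [h0 e0 x0 hx0]
    exact rel_star (k := 1) (hs.form.alt e0 x0 hx0) (hw.kahler.posDef e0 x0 hx0).isHermitian
      (hw.rel e0 x0 hx0)
  · exact P268.analyticOnNhd_of_differentiableOn isOpen_ball
      (fun h' hh' => (hκ h' hh').differentiableWithinAt) h (ball_subset_ball (by linarith) hh)
  · ext j k
    have := ident (G := fun h' => ((W h' e (e x))ᵀ * (s e (e x))⁻¹ * W h' e (e x)) j k +
      κ h' * star (s e (e x) j k)) (fun h' hh' =>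
        (diff_ent (W := fun h' => W h' e (e x)) (hD h' hh' e x hx) _ j k).add
          ((hκ h' hh').mul_const _)) (fun h' hh' hr => ?_) hh
    · simp only [Matrix.smul_apply, Matrix.map_apply, smul_eq_mul]
      linear_combination this
    · obtain ⟨k', hk'⟩ := real h' hh' hr
      simp only [hk' e x hx, hκk h' k' (hk' e0 x0 hx0), Matrix.smul_apply, Matrix.map_apply,
        smul_eq_mul]
      ring

end Vale.Agent.P301Z.Df
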