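import Vale.Agent.P301Z.Df.Defs

/-!
# P301, block KUR: pull-backs of families of forms
-/

open scoped Manifold ContDiff ComplexOrder Topology Matrix
open Filter Complex
open Vale.Agent.P272.K Vale.Agent.P299.IX Vale.Agent.P299.IX.Fock
open Vale.Agent.P281Z (Mf)
open Vale.Agent.P281Z.Hg
open Vale.Agent.P301Z.Lat Vale.Agent.P301Z.Rot

noncomputable section

namespace Vale.Agent.P301Z.Df

namespace Pbf

variable {d : ℕ}

/-- transport of `CS` along an invertible map -/
theorem cs_of {u u' : Fo d} (D D' : Cm d →L[ℝ] Cm d) (h1 : ∀ v, D' (D v) = v)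
    (h2 : ∀ v, D (D' v) = v) (h : ∀ a c, bv u a c = bv u' (D a) (D c)) (hu : CS u') : CS u := by
  refine ⟨fun a ha => ?_, fun a => ?_⟩
  · rw [← h1 a, hu.1 (D a) fun c => by rw [← h2 c, ← h, ha], map_zero]
  · obtain ⟨a', ha⟩ := hu.2 (D a)
    exact ⟨D' a', fun c => by rw [h, h, h2, ha]⟩

end Pbf

theorem pbf : PBF := by
  intro d b V V' φ T h1 h2 hT
  have at' : ∀ y : V'.X, At (chartAt (Cm d) y) y := fun y =>
    ⟨chart_mem_atlas _ _, mem_chart_source _ _⟩
  refine ⟨fun N g _ hg => ⟨fun t ht => ?_, fun t ht e x he => ?_, fun t ht e x he => ?_⟩,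
    fun u hu e x he => ?_⟩
  · rw [← (((pb1T d V.X d V'.X) φ h1).2.2.2 T _ _ hT (dR_real V) (dR_real V')).2.1, hg.dg t ht]
  · set e' := chartAt (Cm d) (φ x)
    have k1 := h1.sm e e' x he (at' _)
    have k2 : ∀ᶠ z in 𝓝 (e x), ∀ u, vl (T u) e z = lr (jc (fun z => e' (φ (e.symm z))) z) *ᵥ
        vl u e' (e' (φ (e.symm z))) := by
      have k : ∀ᶠ z in 𝓝 (e x), φ (e.symm z) ∈ e'.source :=
        (φ.continuous.continuousAt.comp (e.continuousAt_symm (e.map_source he.2))).eventually_mem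
          (by simpa only [Function.comp, e.left_inv he.2] using
            e'.open_source.mem_nhds (at' (φ x)).2)
      filter_upwards [k, e.open_target.mem_nhds (e.map_source he.2)] with z hz hz' u
      have := hT u e e' (e.symm z) ⟨he.1, e.map_target hz'⟩ ⟨(at' _).1, hz⟩
      rwa [e.right_inv hz'] at this
    have t2 : Tendsto (Prod.snd : Cm b × Cm d → Cm d) (𝓝 (t, e x)) (𝓝 (e x)) := continuousAt_snd
    refine ContDiffAt.congr_of_eventuallyEq ?_ ((t2.eventually k2).mono fun q hq => hq (g q.1))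
    have k3 : ContDiffAt ℝ ∞ (fun q : Cm b × Cm d => vl (g q.1) e' (e' (φ (e.symm q.2))))
        (t, e x) := by
      have k4 := hg.sm t ht e' (φ x) (at' _)
      rw [show e' (φ x) = e' (φ (e.symm (e x))) by rw [e.left_inv he.2]] at k4
      exact k4.comp (f := fun q : Cm b × Cm d => (q.1, e' (φ (e.symm q.2)))) (t, e x)
        (contDiffAt_fst.prodMk (k1.comp (f := Prod.snd) (t, e x) contDiffAt_snd))
    refine contDiffAt_pi.2 fun K => ?_
    simp only [Matrix.mulVec, dotProduct]
    refine ContDiffAt.sum fun J _ => ContDiffAt.mul ?_ ?_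
    · exact (k1b'.lr_smooth (k1b'.jc_smooth k1) K J).comp (f := Prod.snd) (t, e x) contDiffAt_snd
    · exact contDiffAt_pi.1 k3 J
  · simp only [fun u => hT u e _ x he (at' _)]
    refine differentiableAt_pi.2 fun K => ?_
    simp only [Matrix.mulVec, dotProduct]
    exact DifferentiableAt.fun_sum fun J _ =>
      (differentiableAt_pi.1 (hg.hol t ht _ (φ x) (at' _)) J).const_mul _
  · set e' := chartAt (Cm d) (φ x)
    let c : Chart d V.X := φ.toOpenPartialHomeomorph.trans e'
    have hc : x ∈ c.source := ⟨Set.mem_univ _, (at' (φ x)).2⟩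
    have k1 : ContDiffAt ℝ ∞ (trn e c) (e x) := h1.sm e e' x he (at' _)
    have k2 : ContDiffAt ℝ ∞ (trn c e) (c x) :=
      h2.sm e' e (φ x) (at' _) (by rwa [φ.symm_apply_apply])
    refine Pbf.cs_of _ _ (trn_inv he.2 hc k1 k2) (trn_inv hc he.2 k2 k1) (fun a a' => ?_)
      (hu e' (φ x) (at' _))
    rw [hT u e e' x he (at' _)]
    exact bv_jc (k1.differentiableAt (by simp)) _ _ _

end Vale.Agent.P301Z.Df
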