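import Vale.Agent.P301Z.Df.Defs
import Vale.Agent.P301Z.Rot.Typ

/-!
# P301, block KUR: the pointwise linear algebra
-/

open scoped Matrix
open Complex
open Vale.Agent.P272.K Vale.Agent.P281Z.Hg
open Vale.Agent.P301Z.Lat Vale.Agent.P301Z.Rot

noncomputable section

namespace Vale.Agent.P301Z.Df

namespace Pt

variable {d : ℕ} {s W : Mx d} {A A' κ : ℂ}

/-- the complexified form -/
def E (s W : Mx d) (A A' : ℂ) (a a' b : Cm d) : ℂ :=
  A * (a ⬝ᵥ s *ᵥ b) + I * (a ⬝ᵥ W *ᵥ star b - b ⬝ᵥ W *ᵥ a') +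
    A' * (a' ⬝ᵥ s.map star *ᵥ star b)

theorem E_add (a c a' c' b : Cm d) :
    E s W A A' (a + c) (a' + c') b = E s W A A' a a' b + E s W A A' c c' b := by
  simp only [E, add_dotProduct, Matrix.mulVec_add, dotProduct_add]
  ring

theorem E_smul (t : ℂ) (a a' b : Cm d) :
    E s W A A' (t • a) (t • a') b = t * E s W A A' a a' b := by
  simp only [E, smul_dotProduct, Matrix.mulVec_smul, dotProduct_smul, smul_eq_mul]
  ring

theorem bv_E (hs : sᵀ = -s) (a b : Cm d) :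
    bv (A • f20 s + f11 W + A' • cjv (f20 s)) a b = E s W A A' a (star a) b := by
  have h : star (a ⬝ᵥ s *ᵥ b) = star a ⬝ᵥ s.map star *ᵥ star b := by
    simp only [dotProduct, Matrix.mulVec, star_sum, star_mul', Pi.star_apply, Matrix.map_apply]
  rw [bv_add, bv_add, bv_smul, bv_smul, bv_cjv, bv_f20 hs, bv_f11, h, E]

theorem E_mu (hs : sᵀ = -s) (hd : s.det ≠ 0) (hA : A ≠ 0) (hκ : A * A' = -κ)
    (h : Wᵀ * s⁻¹ * W = -κ • s.map star) (x b : Cm d) :
    E s W A A' ((-(I / A)) • (s⁻¹ * W) *ᵥ x) x b = 0 := by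
  have h1 : ∀ y, s *ᵥ ((s⁻¹ * W) *ᵥ y) = W *ᵥ y := fun y => by
    rw [Matrix.mulVec_mulVec, Matrix.mul_nonsing_inv_cancel_left _ _ (IsUnit.mk0 _ hd)]
  have h2 : (s⁻¹ * W) *ᵥ x ⬝ᵥ s *ᵥ b = -(b ⬝ᵥ W *ᵥ x) := by rw [dot_skew hs, h1]
  have h3 : (s⁻¹ * W) *ᵥ x ⬝ᵥ W *ᵥ star b = κ * (x ⬝ᵥ s.map star *ᵥ star b) := by
    rw [← h1 (star b), dot_skew hs, h1, dotProduct_comm, ← Matrix.vecMul_transpose,
      ← Matrix.dotProduct_mulVec, Matrix.mulVec_mulVec, ← Matrix.mul_assoc, h, Matrix.smul_mulVec,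
      dotProduct_smul, smul_eq_mul]
    ring
  simp only [E, smul_dotProduct, smul_eq_mul, h2, h3]
  field_simp
  linear_combination (x ⬝ᵥ s.map star *ᵥ star b) * hκ - κ * (x ⬝ᵥ s.map star *ᵥ star b) * I_sq

theorem nondeg (hs : sᵀ = -s) (hW : ∀ ξ : Cm d, ξ ≠ 0 → 0 < (ξ ⬝ᵥ W *ᵥ star ξ).re) {a : Cm d}
    (h : ∀ b, E s W A A' a (star a) b = 0) : a = 0 := by
  by_contra h0
  have h1 := hW a h0
  have h2 : a ⬝ᵥ s *ᵥ a = 0 := by linear_combination (dot_skew hs a a) / 2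
  have h3 : star a ⬝ᵥ s.map star *ᵥ star a = 0 := by
    have h4 : (s.map star)ᵀ = -s.map star := by
      ext i j
      have h5 := congrFun (congrFun hs i) j
      simp only [Matrix.transpose_apply, Matrix.neg_apply, Matrix.map_apply] at h5 ⊢
      rw [h5, star_neg]
    linear_combination (dot_skew h4 (star a) (star a)) / 2
  have h4 := h (I • a)
  simp only [E, star_smul, Matrix.mulVec_smul, dotProduct_smul, smul_dotProduct, smul_eq_mul, h2,
    h3] at h4
  rw [show star I = -I from conj_I] at h4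
  have h5 : a ⬝ᵥ W *ᵥ star a = 0 := by
    linear_combination h4 / 2 + (a ⬝ᵥ W *ᵥ star a) * I_sq
  rw [h5] at h1
  exact lt_irrefl _ h1

/-- the real linear map `x ↦ M x + conj x` -/
def rho (M : Mx d) : Cm d →ₗ[ℝ] Cm d where
  toFun x := M *ᵥ x + star x
  map_add' x y := by
    rw [Matrix.mulVec_add, star_add]
    abel
  map_smul' c x := by
    rw [Matrix.mulVec_smul, star_smul, smul_add]
    rfl

end Pt

open Pt in
theorem pt : PT := by
  intro d s W c A A' κ hs hd hc hA hκ h hW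
  refine ⟨fun a ha => nondeg (A := A) (A' := A') hs hW fun b => ?_, fun a => ?_⟩
  · have h1 := ha b
    rw [bv_smul, bv_E hs] at h1
    exact (mul_eq_zero.1 h1).resolve_left hc
  obtain ⟨M, hM⟩ : ∃ M : Mx d, ∀ x b, E s W A A' (M *ᵥ x) x b = 0 :=
    ⟨(-(I / A)) • (s⁻¹ * W), fun x b => by
      rw [Matrix.smul_mulVec]
      exact E_mu hs hd hA hκ h x b⟩
  have h1 : Function.Injective (rho M) := by
    refine (injective_iff_map_eq_zero _).2 fun x hx => ?_
    have h2 : M *ᵥ x = -star x := eq_neg_of_add_eq_zero_left hx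
    have h3 : (-I) • star x = 0 := nondeg (A := A) (A' := A') hs hW fun b => by
      have h4 := E_smul (s := s) (W := W) (A := A) (A' := A') I (M *ᵥ x) x b
      rw [hM, mul_zero, h2] at h4
      rw [← h4, star_smul, star_star, smul_neg, neg_smul]
      simp
    exact star_eq_zero.1 ((smul_eq_zero.1 h3).resolve_left (neg_ne_zero.2 I_ne_zero))
  obtain ⟨x, rfl⟩ := LinearMap.injective_iff_surjective.1 h1 a
  have h2 : ∀ x b, E s W A A' (rho M x) (star (rho M x)) b =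
      E s W A A' (star x) (star (M *ᵥ x)) b := fun x b => by
    show E s W A A' (M *ᵥ x + star x) (star (M *ᵥ x + star x)) b = _
    rw [star_add, star_star, add_comm (star _) x, E_add, hM, zero_add]
  refine ⟨rho M ((-I) • x), fun b => ?_⟩
  rw [bv_smul, bv_smul, bv_E hs, bv_E hs, h2, h2, Matrix.mulVec_smul, star_smul, star_smul, E_smul]
  simp only [star_neg, Complex.star_def, conj_I, neg_neg]
  ring

end Vale.Agent.P301Z.Df
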