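import Vale.Agent.P301Z.Df.Adp
import Vale.Agent.P301Z.Df.Pt
import Vale.Agent.P301Z.Df.Idt
import Vale.Agent.P301Z.Df.Hdz
import Vale.Agent.P301Z.Df.Gam
import Vale.Agent.P301Z.Df.Bas
import Vale.Agent.P301Z.Df.Pbf
import Vale.Agent.P301Z.Cs.Cyc
import Vale.Agent.P301Z.Rot.All

/-!
# P301, block KUR: all rows together
-/

namespace Vale.Agent.P301Z.Df

/-- the universal family of forms -/
theorem kur (hL : Lat.LAT) (rot : ROT0) : Dg.KUR :=
  dgKur_of hL (kur_of hL rot Cs.cyc pt idt (gam_of hdz) bas pbf)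

/-- the universal family of forms, with the rotation inserted -/
theorem dgKur (hL : Lat.LAT) : Dg.KUR := kur hL (Rot.rot0' hL)

end Vale.Agent.P301Z.Df
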