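import Vale.Agent.P301Z.Rot.Man
import Vale.Agent.P301Z.Cs.Cyf

/-!
# P301, block KUR: the local universal family of closed two-forms (definitions and rows)
-/

open scoped Manifold ContDiff ComplexOrder Topology Matrix
open Filter Metric Complex
open Vale.Agent.P272.K Vale.Agent.P299.IX Vale.Agent.P299.IX.Fock
open Vale.Agent.P281Z (Mf)
open Vale.Agent.P281Z.Hg
open Vale.Agent.P301.H599 (IsSymplectic ddc)
open Vale.Agent.P301.H450 (IsHK IsReal11)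
open Vale.Agent.P301Z.Lat Vale.Agent.P301Z.Rot
open Vale.Agent.P301Z.Ab (JSm)
open Vale.Agent.P301Z.Cs (MF)

noncomputable section

namespace Vale.Agent.P301Z.Df

variable {d b m : ℕ}

/-- the form `u` at a point defines a complex structure -/
def CS (u : Fo d) : Prop := (∀ a, (∀ c, bv u a c = 0) → a = 0) ∧ ∀ a, ∃ a', Jr u a a'

/-- smooth near `q` and holomorphic in the first variable -/
def JH {F : Type} [NormedAddCommGroup F] [NormedSpace ℝ F] [NormedSpace ℂ F]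
    (f : Cm b × Cm d → F) (q : Cm b × Cm d) : Prop :=
  ∀ᶠ q' in 𝓝 q, ContDiffAt ℝ ∞ f q' ∧ DifferentiableAt ℂ (fun t => f (t, q'.2)) q'.1

/-- holomorphic families of one-forms -/
structure Fam1 {V : Mf d} (N : Set (Cm b)) (g : Cm b → Fs V) : Prop where
  dg : ∀ t ∈ N, (dR V).dg 1 (g t) = g t
  sm : ∀ t ∈ N, ∀ e x, At e x →
    ContDiffAt ℝ ∞ (fun q : Cm b × Cm d => vl (g q.1) e q.2) (t, e x)
  hol : ∀ t ∈ N, ∀ e x, At e x → DifferentiableAt ℂ (fun t' => vl (g t') e (e x)) t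

/-- the form `w + Σ h_i θ_i + i∂∂̄(u + i v)` -/
def cpert {X : Type} [TopologicalSpace X] (w : MF d X) (θ : Fin m → MF d X) (h : Cm m)
    (u v : X → ℝ) : MF d X :=
  fun e z => w e z + ∑ i, h i • θ i e z + (ddc u e z + I • ddc v e z)

/-- **CYC**: complexified Calabi-Yau metrics -/
def CYC : Prop := ∀ (d m : ℕ) (X : Type) [TopologicalSpace X] [ChartedSpace (Cm d) X]
  [IsManifold 𝓘(ℂ, Cm d) ω X] [T2Space X] [CompactSpace X] [ConnectedSpace X] (w : MF d X)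
  (θ : Fin m → MF d X), 0 < d → IsKahler w → (∀ i, IsReal11 (θ i)) →
  ∃ (ε : ℝ) (u v : Cm m → X → ℝ), 0 < ε ∧ (∀ x, u 0 x = 0 ∧ v 0 x = 0) ∧
    JSm (Cm d) u (ball 0 ε) ∧ JSm (Cm d) v (ball 0 ε) ∧ ∀ h ∈ ball (0 : Cm m) ε,
    (∀ x, DifferentiableAt ℂ (fun h' => (u h' x : ℂ) + I * v h' x) h) ∧
    (∀ e x, At e x → ∀ ξ : Cm d, ξ ≠ 0 →
      0 < (ξ ⬝ᵥ cpert w θ h (u h) (v h) e (e x) *ᵥ star ξ).re) ∧
    ((∀ i, (h i).im = 0) → IsKahler (cpert w θ h (u h) (v h)) ∧ ∃ c : ℝ, ∀ e x, At e x →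
      (cpert w θ h (u h) (v h) e (e x)).det.re = c * (w e (e x)).det.re)

/-- **PT**: the pointwise linear algebra -/
def PT : Prop := ∀ (d : ℕ) (s W : Mx d) (c A A' κ : ℂ), sᵀ = -s → s.det ≠ 0 → c ≠ 0 → A ≠ 0 →
  A * A' = -κ → Wᵀ * s⁻¹ * W = -κ • s.map star →
  (∀ ξ : Cm d, ξ ≠ 0 → 0 < (ξ ⬝ᵥ W *ᵥ star ξ).re) →
  CS (c • (A • f20 s + f11 W + A' • cjv (f20 s)))

/-- **IDT**: the compatibility relation for complex parameters -/
def IDT : Prop := ∀ (d m : ℕ) (X : Type) [TopologicalSpace X] [ChartedSpace (Cm d) X]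
  [IsManifold 𝓘(ℂ, Cm d) ω X] [T2Space X] [CompactSpace X] [ConnectedSpace X] (s w : MF d X)
  (W : Cm m → MF d X) (ε : ℝ), 0 < d → 0 < ε → IsSymplectic d X w s → IsHK s w 1 →
  (∀ e x, At e x → W 0 e (e x) = w e (e x)) →
  (∀ h ∈ ball (0 : Cm m) ε, ∀ e x, At e x → ∀ j k,
    DifferentiableAt ℂ (fun h' => W h' e (e x) j k) h) →
  (∀ h ∈ ball (0 : Cm m) ε, (∀ i, (h i).im = 0) → IsKahler (W h) ∧ ∃ c : ℝ, ∀ e x, At e x →
    (W h e (e x)).det.re = c * (w e (e x)).det.re) →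
  ∃ κ : Cm m → ℂ, κ 0 = 1 ∧ ∀ h ∈ ball (0 : Cm m) (ε / 3), AnalyticAt ℂ κ h ∧ ∀ e x, At e x →
    (W h e (e x))ᵀ * (s e (e x))⁻¹ * W h e (e x) = -κ h • (s e (e x)).map star

/-- **HDZ**: derivatives along the fibre stay holomorphic in the parameter -/
def HDZ : Prop := ∀ (b d : ℕ) (f : Cm b × Cm d → ℂ) (q : Cm b × Cm d), JH f q →
  ∀ c : Fin (d + d), JH (fun q' : Cm b × Cm d => dr c (fun z => f (q'.1, z)) q'.2) q

/-- **GAM**: the one-forms `i ∂̄(u + i v)` -/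
def GAM : Prop := ∀ (d m : ℕ) (V : Mf d) (u v : Cm m → V.X → ℝ) (N : Set (Cm m)), IsOpen N →
  JSm (Cm d) u N → JSm (Cm d) v N →
  (∀ h ∈ N, ∀ x, DifferentiableAt ℂ (fun h' => (u h' x : ℂ) + I * v h' x) h) →
  ∃ g : Cm m → Fs V, Fam1 N g ∧ ∀ h ∈ N, ((∀ x, u h x = 0 ∧ v h x = 0) → g h = 0) ∧
    Is11 (fun e z => ddc (u h) e z + I • ddc (v h) e z) ((dR V).d (g h)) ∧
    ∀ e x, At e x → ∀ j k, DifferentiableAt ℂ
      (fun h' => (ddc (u h') e (e x) + I • ddc (v h') e (e x) : Mx d) j k) h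

/-- **BAS**: an adapted basis -/
def BAS : Prop := ∀ (r : ℕ) (q : Matrix (Fin r) (Fin r) ℤ) (p : Fin r → ℂ) (k : Fin r → ℝ),
  qᵀ = q → qC q p p = 0 → 0 < (qC q p (star p)).re → qC q p (rc k) = 0 → 0 < qR q k k →
  ∃ (m : ℕ) (e : Fin m → Fin r → ℝ) (β : Module.Basis (Fin 3 ⊕ Fin m) ℂ (Fin r → ℂ)),
    m + 3 = r ∧ (∀ i, qC q p (rc (e i)) = 0) ∧ β (.inl 0) = p ∧ β (.inl 1) = star p ∧
    β (.inl 2) = rc k ∧ ∀ i, β (.inr i) = rc (e i)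

/-- **PBF**: pull-backs -/
def PBF : Prop := ∀ (d b : ℕ) (V V' : Mf d) (φ : V.X ≃ₜ V'.X) (T : Fs V' →ₗ[ℂ] Fs V),
  Smo d d φ → Smo d d φ.symm → IsPb φ T →
  (∀ (N : Set (Cm b)) (g : Cm b → Fs V'), IsOpen N → Fam1 N g → Fam1 N fun t => T (g t)) ∧
  ∀ u : Fs V', (∀ e x, At e x → CS (vl u e (e x))) → ∀ e x, At e x → CS (vl (T u) e (e x))

end Vale.Agent.P301Z.Df
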