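import Vale.Agent.P301Z.Df.Kur
import Vale.Agent.P301Z.Dg.Defs

/-!
# P301, block KUR: normalisation of the symplectic form
-/

open scoped Manifold ContDiff ComplexOrder Topology Matrix
open Filter Metric Complex
open Vale.Agent.P272.K Vale.Agent.P299.IX Vale.Agent.P299.IX.Fock
open Vale.Agent.P281Z (Mf)
open Vale.Agent.P281Z.Hg
open Vale.Agent.P301.H450 (IsHK exists_rf)
open Vale.Agent.P301Z.Lat Vale.Agent.P301Z.Rot

noncomputable section

namespace Vale.Agent.P301Z.Df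

theorem cs_smul {d : ℕ} {u : Fo d} {c : ℂ} (hc : c ≠ 0) (h : CS u) : Dg.Cs (c • u) := by
  refine ⟨fun a ha => h.1 a fun x => ?_, fun a => ?_⟩
  · have k := ha x
    rw [bv_smul] at k
    exact (mul_eq_zero.1 k).resolve_left hc
  · obtain ⟨a', k⟩ := h.2 a
    exact ⟨a', fun x => by rw [bv_smul, bv_smul, k x]; ring⟩

theorem dgKur_of (hL : LAT) (hK : KUR) : Dg.KUR := by
  intro n r B Y s w p k h
  have := Y.sc
  obtain ⟨f, κ, hf, hk⟩ := exists_rf (hL.rel.sym h) h.2.1.1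
  have hκ := hk.pos
  obtain ⟨c, hc0, hcc, hst⟩ : ∃ c : ℂ, c ≠ 0 ∧ c * c = κ ∧ star c = c :=
    ⟨(Real.sqrt κ : ℝ), ofReal_ne_zero.2 (Real.sqrt_pos.2 hκ).ne', by
      rw [← ofReal_mul, Real.mul_self_sqrt hκ.le], conj_ofReal _⟩
  obtain ⟨u, u1, u2, u3⟩ := h.1.1.2
  have nd : ∀ e x, At e x → (c • s e (e x)).det ≠ 0 := fun e x hx => by
    rw [Matrix.det_smul]
    exact mul_ne_zero (pow_ne_zero _ hc0) (h.1.2 e x hx)
  have h1 : Y.HK (fun e z => c • s e z) (addH w f) (c • p) k := by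
    refine ⟨⟨⟨⟨fun e x hx i j => analyticAt_const.mul (h.1.1.1.holo e x hx i j),
      fun e x hx => ?_, fun e e' x hx hx' => ?_⟩, c • u, fun e x hx => ?_, u2.smul c, ?_⟩, nd⟩,
      ⟨hk.kahler, hL.rel.same h.2.1.2 (R11.kahler hk.kahler) ⟨f, hf, fun _ _ _ => rfl⟩⟩, h.2.2⟩
    · rw [Matrix.transpose_smul, h.1.1.1.alt e x hx, smul_neg]
    · rw [h.1.1.1.change e e' x hx hx', Matrix.mul_smul, Matrix.smul_mul]
    · rw [vl_smul, u1 e x hx, hL.pwa.f20_smul]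
    · rw [map_smul, u3]
  have h2 : IsHK (fun e z => c • s e z) (addH w f) 1 := by
    refine ⟨one_pos, hk.kahler, hk.ric, fun e x hx => ?_⟩
    have k1 : ((c • s e (e x))ᴴ)⁻¹ = c⁻¹ • ((s e (e x))ᴴ)⁻¹ := by
      refine Matrix.inv_eq_right_inv ?_
      rw [Matrix.conjTranspose_smul, hst, Matrix.smul_mul, Matrix.mul_smul, smul_smul,
        mul_inv_cancel₀ hc0, one_smul, Matrix.mul_nonsing_inv]
      rw [Matrix.det_conjTranspose]
      exact isUnit_iff_ne_zero.2 (star_ne_zero.2 (h.1.2 e x hx))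
    rw [k1, Matrix.mul_smul, Matrix.smul_mul, hk.rel e x hx, smul_smul, ← hcc,
      inv_mul_cancel_left₀ hc0, ofReal_one, one_smul]
  obtain ⟨b, K, q1, q2, q3, q4⟩ := hK n r B Y _ _ _ k h1 h2
  have hi : c⁻¹ ≠ 0 := inv_ne_zero hc0
  have g0 : K.g 0 = 0 := by simpa using K.gv 0
  have fd : ∀ x, fderiv ℂ (fun t => c⁻¹ • K.p t) 0 x = c⁻¹ • fderiv ℂ K.p 0 x := fun x => by
    rw [fderiv_fun_const_smul (K.an 0 K.mem).differentiableAt]
    rfl
  refine ⟨addH w f, b, ⟨K.N, K.R, fun t => c⁻¹ • K.p t, fun t => c⁻¹ • K.g t, K.opn, K.mem, K.cl,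
    K.c, K.cj, fun e x hx => ?_, q2, fun t ht => (K.an t ht).const_smul (c := c⁻¹), ?_,
    fun t ht => ?_, fun t ht e x hx => (K.fam.sm t ht e x hx).const_smul c⁻¹,
    fun t ht e x hx => (K.fam.hol t ht e x hx).const_smul c⁻¹, by rw [g0, smul_zero],
    fun t ht e x hx => ?_⟩, hk.kahler, K.dim, fun a x hx => ?_, c • K.v, ?_, fun e x hx => ?_⟩
  · have k1 := q1 e x hx
    rw [map_smul, vl_smul, hL.pwa.f20_smul] at k1
    exact smul_right_injective _ hc0 k1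
  · rw [q3, smul_smul, inv_mul_cancel₀ hc0, one_smul]
  · show (dR Y.V).dg 1 _ = _
    rw [map_smul, K.fam.dg t ht]
  · rw [map_smul, map_smul, ← smul_add, vl_smul]
    exact cs_smul hi (K.cs t ht e x hx)
  · refine K.li a x ?_
    have k1 := congrArg (c • ·) hx
    simp only [fd, smul_add, smul_zero, smul_smul, mul_inv_cancel₀ hc0, one_smul] at k1
    rw [q3, smul_smul, mul_comm]
    exact k1
  · show fderiv ℂ (fun t => c⁻¹ • K.p t) 0 (c • K.v) = _
    rw [fd, map_smul, q4, smul_smul, inv_mul_cancel₀ hc0, one_smul]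
  · show fderiv ℝ (fun t => vl (c⁻¹ • K.g t) e (e x)) 0 (c • K.v) = 0
    have k1 : DifferentiableAt ℝ (fun t => vl (c⁻¹ • K.g t) e (e x)) 0 :=
      ((K.fam.hol 0 K.mem e x hx).const_smul c⁻¹).restrictScalars ℝ
    have k2 : HasDerivAt (fun τ : ℝ => τ • (c • K.v)) (c • K.v) 0 := by
      simpa using (hasDerivAt_id (0 : ℝ)).smul_const (c • K.v)
    have k3 := (show HasFDerivAt (fun t => vl (c⁻¹ • K.g t) e (e x)) _ ((0 : ℝ) • (c • K.v)) by
      rw [zero_smul]; exact k1.hasFDerivAt).comp_hasDerivAt (0 : ℝ) k2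
    refine k3.unique ((hasDerivAt_const (0 : ℝ) (0 : Fo (n + n))).congr_of_eventuallyEq
      (Eventually.of_forall fun τ => ?_))
    show vl (c⁻¹ • K.g (τ • (c • K.v))) e (e x) = 0
    rw [← Complex.coe_smul, smul_smul, K.gv, smul_zero, vl_zero]

end Vale.Agent.P301Z.Df
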