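import Vale.Agent.P301Z.Df.Kz
import Vale.Agent.P301Z.Sk

/-!
# P301, block KUR: the family on the given manifold
-/

open scoped Manifold ContDiff ComplexOrder Topology Matrix
open Filter Metric Complex
open Vale.Agent.P272.K Vale.Agent.P299.IX Vale.Agent.P299.IX.Fock
open Vale.Agent.P281Z (Mf)
open Vale.Agent.P281Z.Hg
open Vale.Agent.P301.H450 (IsHK)
open Vale.Agent.P301Z.Lat Vale.Agent.P301Z.Rot

noncomputable section

namespace Vale.Agent.P301Z.Df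

/-- **KUR**: the local universal family -/
def KUR : Prop := ∀ (n r : ℕ) (B : BB n r) (Y : MK B) (s w : Fld Y.V) p k, Y.HK s w p k →
  IsHK s w 1 → ∃ (b : ℕ) (K : KF0 Y b), Is20 s (K.R p) ∧ Is11 w (K.R (rc k)) ∧ K.p 0 = p ∧
    fderiv ℂ K.p 0 K.v = rc k

theorem kur_of (hL : LAT) (rot : ROT0) (cyc : CYC) (pt : PT) (idt : IDT) (gam : GAM) (bas : BAS)
    (pbf : PBF) : KUR := by
  intro n r B Y s w p k h hk
  obtain ⟨Z, -, g, g', s', w', u, a, u', a', T₀, g1, g2, m1, m2, hs', nd, hk', i1, i2, i3, i4, hT,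
    e1, e2⟩ := rot n r B Y s w p k h hk
  let φ : Y.V.X ≃ₜ Z.V.X := ⟨⟨g, g', g1, g2⟩, m1.1.cont, m2.1.cont⟩
  obtain ⟨⟨T, hT'⟩, uq, -, pb⟩ := pb1T (n + n) Y.V.X (n + n) Z.V.X g m1.1
  obtain rfl : T₀ = T := uq _ _ hT hT'
  obtain ⟨pd, pg, pc, -⟩ := pb T _ _ hT (dR_real Y.V) (dR_real Z.V)
  obtain ⟨u0, j1, c1, p1⟩ := h.1.1.2
  obtain rfl := j1.uniq i1
  obtain ⟨a0, j2, c2, p2⟩ := h.2.1.2.2
  obtain rfl := j2.uniq i2
  have c3 : Cl2 Z.V u' := hL.d20.cl ⟨w', hk'.kahler⟩ hs' i3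
  have c4 : Cl2 Z.V a' := (hL.d11.cl (R11.kahler hk'.kahler) i4).1
  have p3 : Z.m.c u' = (2⁻¹ : ℂ) • (rc k - p + star p) := by
    have k1 := congrArg Y.m.c e2
    rw [map_smul, m1.2 T hT u' c3, map_add, map_sub, Y.m.cj _ c1, p1, p2] at k1
    rw [← k1, smul_smul]
    norm_num
  have p4 : Z.m.c a' = rc fun i => 2 * (p i).re := by
    rw [← m1.2 T hT a' c4, e1, map_add, Y.m.cj _ c1, p1]
    funext i
    simp [rc, Complex.add_conj]
  have p5 : (rc fun i => 2 * (p i).re) = p + star p := by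
    funext i
    simp [rc, Complex.add_conj]
  have hZ : Z.HK s' w' ((2⁻¹ : ℂ) • (rc k - p + star p)) fun i => 2 * (p i).re := by
    refine ⟨⟨⟨hs', u', i3, c3, p3⟩, nd⟩, ⟨hk'.kahler, R11.kahler hk'.kahler, a', i4, c4, p4⟩, ?_⟩
    have k1 := qC_rc B.q (fun i => 2 * (p i).re) fun i => 2 * (p i).re
    have k2 := hL.rel.pp h.1.1 h.1.1
    have k3 := Complex.lt_def.1 (hL.rel.ppb h)
    rw [p5, qC_add_l, qC_add_r, qC_add_r, qC_star, k2, qC_comm _ B.symm (star p) p] at k1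
    have k4 := congrArg Complex.re k1
    simp only [star_zero, zero_add, add_zero, add_re, ofReal_re] at k4
    have k5 := k3.1
    simp only [zero_re] at k5
    linarith
  obtain ⟨b, K, q1, q2, q3, q4⟩ := kz hL cyc pt idt gam bas hZ hk'
  have r1 := q1.uniq i3
  have r2 := q2.uniq i4
  have r3 : K.R (star ((2⁻¹ : ℂ) • (rc k - p + star p))) = (dR Z.V).cj u' := by rw [← K.cj, r1]
  have st : star ((2⁻¹ : ℂ) • (rc k - p + star p)) = (2⁻¹ : ℂ) • (rc k - star p + p) := by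
    simp [star_rc]
  have e3 : (2 : ℂ) • T ((dR Z.V).cj u') = a0 - (dR Y.V).cj u0 + u0 := by
    have k1 := congrArg (dR Y.V).cj e2
    rw [LinearMap.map_smulₛₗ, map_add, map_sub, (dR_ok _).cjcj,
      (hL.d11.cl h.2.1.2.1 j2).2, ← pc] at k1
    simpa only [map_ofNat] using k1
  have q5 : K.p 0 = p := by
    rw [q3, st, p5]
    module
  have q6 : fderiv ℂ K.p 0 K.v = rc k := by
    rw [q4, st]
    module
  obtain ⟨f1, f2⟩ := pbf (n + n) b Y.V Z.V φ T m1.1 m2.1 hT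
  refine ⟨b, ⟨K.N, T ∘ₗ K.R, K.p, fun t => T (K.g t), K.v, K.opn, K.mem, fun x => ?_,
    fun x => (m1.2 T hT _ (K.cl x)).trans (K.c x), fun x => ?_, K.an, f1 _ _ K.opn K.fam,
    fun z => by rw [K.gv, map_zero], fun t ht => ?_, K.dim, K.li⟩, ?_, ?_, q5, q6⟩
  · exact ⟨by rw [LinearMap.comp_apply, ← pd, (K.cl x).1, map_zero],
      by rw [LinearMap.comp_apply, ← pg, (K.cl x).2]⟩
  · rw [LinearMap.comp_apply, LinearMap.comp_apply, ← pc, K.cj]
  · rw [LinearMap.comp_apply, ← pd, ← map_add]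
    exact f2 _ (K.cs t ht)
  · have k1 : T (K.R p) = u0 := by
      rw [← q5, q3]
      simp only [map_smul, map_add, map_neg, r1, r2, r3, e1]
      linear_combination (norm := module) (-4⁻¹ : ℂ) • e2 + (4⁻¹ : ℂ) • e3
    show Is20 s (T (K.R p))
    rw [k1]
    exact j1
  · have k1 : T (K.R (rc k)) = a0 := by
      rw [← q6, q4, map_add, r1, r3, map_add]
      linear_combination (norm := module) (2⁻¹ : ℂ) • e2 + (2⁻¹ : ℂ) • e3
    show Is11 w (T (K.R (rc k)))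
    rw [k1]
    exact j2

end Vale.Agent.P301Z.Df
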