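import Vale.Agent.P301Z.Df.Defs
import Vale.Agent.P301Z.Lat.Sk
import Vale.Agent.P301Z.Lat.Pk

/-!
# P301, block KUR: the family on the rotated manifold
-/

open scoped Manifold ContDiff ComplexOrder Topology Matrix
open Filter Metric Complex
open Vale.Agent.P272.K Vale.Agent.P299.IX Vale.Agent.P299.IX.Fock
open Vale.Agent.P281Z (Mf)
open Vale.Agent.P281Z.Hg
open Vale.Agent.P301.H599 (IsSymplectic ddc)
open Vale.Agent.P301.H450 (IsHK IsReal11)
open Vale.Agent.P301Z.Lat Vale.Agent.P301Z.Rot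

noncomputable section

namespace Vale.Agent.P301Z.Df

variable {n r m d : ℕ} {B : BB n r}

/-- a holomorphic family of closed two-forms which define complex structures -/
structure KF0 (Y : MK B) (b : ℕ) where
  N : Set (Cm b)
  R : (Fin r → ℂ) →ₗ[ℂ] Fs Y.V
  p : Cm b → Fin r → ℂ
  g : Cm b → Fs Y.V
  v : Cm b
  opn : IsOpen N
  mem : 0 ∈ N
  cl : ∀ x, Cl2 Y.V (R x)
  c : ∀ x, Y.m.c (R x) = x
  cj : ∀ x, (dR Y.V).cj (R x) = R (star x)
  an : ∀ t ∈ N, AnalyticAt ℂ p t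
  fam : Fam1 N g
  gv : ∀ z : ℂ, g (z • v) = 0
  cs : ∀ t ∈ N, ∀ e x, At e x → CS (vl (R (p t) + (dR Y.V).d (g t)) e (e x))
  dim : b + 2 = r
  li : ∀ (a : ℂ) (x : Cm b), a • p 0 + fderiv ℂ p 0 x = 0 → a = 0 ∧ x = 0

namespace Kz

/-- the last coordinates -/
def tl (m : ℕ) : Cm (m + 1) →L[ℂ] Cm m :=
  ContinuousLinearMap.pi fun i => ContinuousLinearMap.proj i.succ

theorem tl_apply (t : Cm (m + 1)) (i : Fin m) : tl m t i = t i.succ := rfl

theorem tl_v (z : ℂ) : tl m (z • Pi.single 0 1) = 0 := by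
  funext i
  simp [tl_apply]

/-- the period map -/
def per (p k : Fin r → ℂ) (e : Fin m → Fin r → ℂ) (κ : Cm m → ℂ) (t : Cm (m + 1)) : Fin r → ℂ :=
  (2⁻¹ : ℂ) • ((-exp (-2 * t 0)) • p + (k + ∑ i, t i.succ • e i) +
    (κ (tl m t) * exp (2 * t 0)) • star p)

variable {p k : Fin r → ℂ} {e : Fin m → Fin r → ℂ} {κ : Cm m → ℂ}

theorem an_co (j : Fin (m + 1)) (t : Cm (m + 1)) : AnalyticAt ℂ (fun t : Cm (m + 1) => t j) t :=
  (ContinuousLinearMap.proj (R := ℂ) (φ := fun _ : Fin (m + 1) => ℂ) j).analyticAt t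

theorem per_an {t : Cm (m + 1)} (h : AnalyticAt ℂ κ (tl m t)) : AnalyticAt ℂ (per p k e κ) t := by
  have h1 : AnalyticAt ℂ (fun t : Cm (m + 1) => -exp (-2 * t 0)) t :=
    (analyticAt_const.mul (an_co 0 t)).cexp.neg
  have h2 : AnalyticAt ℂ (fun t : Cm (m + 1) => κ (tl m t) * exp (2 * t 0)) t :=
    (h.comp ((tl m).analyticAt t)).mul (analyticAt_const.mul (an_co 0 t)).cexp
  have h3 : AnalyticAt ℂ (fun t : Cm (m + 1) => ∑ i, t i.succ • e i) t :=
    Finset.analyticAt_fun_sum _ fun i _ => (an_co _ t).smul analyticAt_const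
  exact (((h1.smul analyticAt_const).add (analyticAt_const.add h3)).add
    (h2.smul analyticAt_const)).const_smul (c := (2⁻¹ : ℂ))

theorem per_zero (h : κ 0 = 1) : per p k e κ 0 = (2⁻¹ : ℂ) • (-p + k + star p) := by
  simp [per, h]

theorem per_fd (h0 : κ 0 = 1) (h : AnalyticAt ℂ κ 0) (x : Cm (m + 1)) :
    fderiv ℂ (per p k e κ) 0 x = (2⁻¹ : ℂ) • ((2 * x 0) • p + ∑ i, x i.succ • e i +
      (fderiv ℂ κ 0 (tl m x) + 2 * x 0) • star p) := by
  have c : ∀ j : Fin (m + 1), HasFDerivAt (fun t : Cm (m + 1) => t j)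
      (ContinuousLinearMap.proj (R := ℂ) (φ := fun _ : Fin (m + 1) => ℂ) j) 0 := fun j =>
    (ContinuousLinearMap.proj (R := ℂ) (φ := fun _ : Fin (m + 1) => ℂ) j).hasFDerivAt
  have h1 := ((c 0).const_mul (-2)).cexp.neg
  have h4 : HasFDerivAt κ (fderiv ℂ κ 0) (tl m 0) := by
    rw [map_zero]; exact h.differentiableAt.hasFDerivAt
  have h2 := (h4.comp 0 (tl m).hasFDerivAt).mul ((c 0).const_mul 2).cexp
  have h3 := HasFDerivAt.fun_sum (u := Finset.univ) fun (i : Fin m) _ => (c i.succ).smul_const (e i)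
  have h5 := (((h1.smul_const p).add (h3.const_add k)).add (h2.smul_const (star p))).const_smul
    (2⁻¹ : ℂ)
  have h6 : HasFDerivAt (per p k e κ) _ 0 := h5
  rw [h6.fderiv]
  simp [h0, add_comm (2 * x 0)]

/-- the form of a matrix depends linearly on the matrix -/
def f11L (hP : PWA) (d : ℕ) : Mx d →ₗ[ℂ] Fo d := ⟨⟨f11, hP.f11_add⟩, hP.f11_smul⟩

theorem fam_tl {V : Mf d} {N : Set (Cm m)} {N' : Set (Cm (m + 1))} {g : Cm m → Fs V}
    (h : Fam1 N g) (hN : ∀ t ∈ N', tl m t ∈ N) (c : ℂ) : Fam1 N' fun t => c • g (tl m t) where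
  dg t ht := by rw [map_smul, h.dg _ (hN t ht)]
  sm t ht e x hx := by
    have k : ContDiffAt ℝ ∞ (fun q : Cm (m + 1) × Cm d => (tl m q.1, q.2)) (t, e x) :=
      ((((tl m).restrictScalars ℝ).contDiff.comp contDiff_fst).prodMk contDiff_snd).contDiffAt
    exact (ContDiffAt.comp (t, e x) (g := fun q : Cm m × Cm d => vl (g q.1) e q.2)
      (h.sm _ (hN t ht) e x hx) k).const_smul c
  hol t ht e x hx :=
    (DifferentiableAt.comp t (g := fun t' => vl (g t') e (e x)) (h.hol _ (hN t ht) e x hx)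
      (tl m).differentiableAt).const_smul c

end Kz

open Kz in
/-- the family on the rotated manifold -/
theorem kz (hL : LAT) (cyc : CYC) (pt : PT) (idt : IDT) (gam : GAM) (bas : BAS) {Z : MK B}
    {s w : Fld Z.V} {p : Fin r → ℂ} {k : Fin r → ℝ} (h : Z.HK s w p k) (hk : IsHK s w 1) :
    ∃ (b : ℕ) (K : KF0 Z b), Is20 s (K.R p) ∧ Is11 w (K.R (rc k)) ∧
      K.p 0 = (2⁻¹ : ℂ) • (-p + rc k + star p) ∧ fderiv ℂ K.p 0 K.v = p + star p := by
  have := Z.sc
  have hd : 0 < n + n := Nat.add_pos_left B.npos n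
  obtain ⟨m, e, β, hm, he, b0, b1, b2, b3⟩ := bas r B.q p k B.symm (hL.rel.pp h.1.1 h.1.1)
    (Complex.lt_def.1 (hL.rel.ppb h)).1 (hL.rel.p11 h.1.1 h.2.1.2) h.2.2
  choose θ hθ using fun i => hL.hd h (e i) (he i)
  choose η η1 η2 η3 using fun i => (hθ i).2
  obtain ⟨sg, s1, s2, s3⟩ := h.1.1.2
  obtain ⟨om, o1, o2, o3⟩ := h.2.1.2.2
  set R : (Fin r → ℂ) →ₗ[ℂ] Fs Z.V := β.constr ℂ (Sum.elim ![sg, (dR Z.V).cj sg, om] η) with hR
  have r0 : R p = sg := by rw [← b0, hR, Module.Basis.constr_basis]; rfl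
  have r1 : R (star p) = (dR Z.V).cj sg := by rw [← b1, hR, Module.Basis.constr_basis]; rfl
  have r2 : R (rc k) = om := by rw [← b2, hR, Module.Basis.constr_basis]; rfl
  have r3 : ∀ i, R (rc (e i)) = η i := fun i => by
    rw [← b3, hR, Module.Basis.constr_basis]; rfl
  have key : ∀ j, Cl2 Z.V (R (β j)) ∧ Z.m.c (R (β j)) = β j ∧
      (dR Z.V).cj (R (β j)) = R (star (β j)) := by
    rintro (j | i)
    · fin_cases j
      · show Cl2 Z.V (R (β (.inl 0))) ∧ Z.m.c (R (β (.inl 0))) = β (.inl 0) ∧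
          (dR Z.V).cj (R (β (.inl 0))) = R (star (β (.inl 0)))
        rw [b0, r0, r1]
        exact ⟨s2, s3, rfl⟩
      · show Cl2 Z.V (R (β (.inl 1))) ∧ Z.m.c (R (β (.inl 1))) = β (.inl 1) ∧
          (dR Z.V).cj (R (β (.inl 1))) = R (star (β (.inl 1)))
        rw [b1, r1, star_star, r0, Z.m.cj _ s2, s3]
        exact ⟨s2.cj, rfl, (dR_ok _).cjcj _⟩
      · show Cl2 Z.V (R (β (.inl 2))) ∧ Z.m.c (R (β (.inl 2))) = β (.inl 2) ∧
          (dR Z.V).cj (R (β (.inl 2))) = R (star (β (.inl 2)))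
        rw [b2, star_rc, r2]
        exact ⟨o2, o3, (hL.d11.cl h.2.1.2.1 o1).2⟩
    · rw [b3, star_rc, r3]
      exact ⟨η2 i, η3 i, (hL.d11.cl (hθ i).1 (η1 i)).2⟩
  obtain ⟨ε, u, v, hε, h0, hu, hv, H⟩ := cyc (n + n) m Z.V.X w θ hd h.2.1.1
    fun i => ⟨(hθ i).1.toIsClosedForm, (hθ i).1.herm⟩
  obtain ⟨g, hg, G⟩ := gam _ _ Z.V u v (ball 0 ε) isOpen_ball hu hv fun a ha => (H a ha).1
  obtain ⟨κ, κ0, hκ⟩ := idt (n + n) m Z.V.X s w (fun a => cpert w θ a (u a) (v a)) ε hd hε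
    (hL.rel.sym h) hk (fun c x _ => by
      have k1 : (fun y => u 0 (c.symm y)) = fun _ => (0 : ℝ) := funext fun y => (h0 _).1
      have k2 : (fun y => v 0 (c.symm y)) = fun _ => (0 : ℝ) := funext fun y => (h0 _).2
      simp [cpert, ddc, k1, k2, N.cHess_const])
    (fun a ha c x hx i j => by
      refine DifferentiableAt.add (DifferentiableAt.const_add (w c (c x) i j) ?_)
        ((G a ha).2.2 c x hx i j)
      simp only [Matrix.sum_apply, Matrix.smul_apply, smul_eq_mul]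
      fun_prop)
    fun a ha => (H a ha).2.2
  have sub : ∀ a ∈ ball (0 : Cm m) (ε / 3), a ∈ ball (0 : Cm m) ε :=
    ball_subset_ball (by linarith)
  have z3 : (0 : Cm m) ∈ ball (0 : Cm m) (ε / 3) := mem_ball_self (by linarith)
  refine ⟨m + 1, ⟨tl m ⁻¹' ball 0 (ε / 3), R, per p (rc k) (fun i => rc (e i)) κ,
    fun t => (2⁻¹ : ℂ) • g (tl m t), Pi.single 0 1, isOpen_ball.preimage (tl m).continuous,
    by simpa using z3, fun x => ?_, fun x => ?_, fun x => ?_, fun t ht => per_an (hκ _ ht).1,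
    fam_tl hg (fun t ht => sub _ ht) _, fun z => ?_, fun t ht c x hx => ?_, by omega,
    fun a x hx => ?_⟩, by rw [r0]; exact s1, by rw [r2]; exact o1, per_zero κ0, ?_⟩
  · rw [← β.sum_repr x, map_sum]
    exact Cl2.sum _ fun j _ => by rw [map_smul]; exact (key j).1.smul _
  · exact LinearMap.congr_fun (β.ext (f₁ := Z.m.c ∘ₗ R) (f₂ := LinearMap.id)
      fun j => (key j).2.1) x
  · rw [← β.sum_repr x]
    simp only [map_sum, map_smul, LinearMap.map_smulₛₗ, (key _).2.2, star_sum, star_smul,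
      RCLike.star_def]
  · rw [tl_v, (G 0 (sub _ z3)).1 h0, smul_zero]
  · have k1 := pt _ (s c (c x)) (cpert w θ (tl m t) (u (tl m t)) (v (tl m t)) c (c x)) 2⁻¹
      (-exp (-2 * t 0)) (κ (tl m t) * exp (2 * t 0)) (κ (tl m t)) (h.1.1.1.alt c x hx)
      (h.1.2 c x hx) (by norm_num) (neg_ne_zero.2 (exp_ne_zero _)) (by
        have : exp (-2 * t 0) * exp (2 * t 0) = 1 := by rw [← Complex.exp_add]; simp
        linear_combination (-κ (tl m t)) * this) ((hκ _ ht).2 c x hx) ((H _ (sub _ ht)).2.1 c x hx)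
    have k2 : f11 (cpert w θ (tl m t) (u (tl m t)) (v (tl m t)) c (c x)) = f11 (w c (c x)) +
        ∑ i, t i.succ • f11 (θ i c (c x)) +
          f11 (ddc (u (tl m t)) c (c x) + I • ddc (v (tl m t)) c (c x)) := by
      show f11L hL.pwa _ _ = f11L hL.pwa _ _ + ∑ i : Fin m, t i.succ • f11L hL.pwa _ _ +
        f11L hL.pwa _ _
      simp only [cpert, map_add, map_sum, map_smul, tl_apply]
    have k3 : vl (R (per p (rc k) (fun i => rc (e i)) κ t) +
        (dR Z.V).d ((2⁻¹ : ℂ) • g (tl m t))) c (c x) = (2⁻¹ : ℂ) • (-exp (-2 * t 0) •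
          f20 (s c (c x)) + f11 (cpert w θ (tl m t) (u (tl m t)) (v (tl m t)) c (c x)) +
          (κ (tl m t) * exp (2 * t 0)) • cjv (f20 (s c (c x)))) := by
      simp only [per, map_smul, map_add, map_sum, r0, r1, r2, r3, vl_add, vl_smul, vl_sum,
        vl_cj _ hx, s1 c x hx, o1.val hx, (η1 _).val hx, (G _ (sub _ ht)).2.1.val hx, k2]
      module
    rw [k3]
    exact k1
  · rw [per_zero κ0, per_fd κ0 (hκ 0 z3).1] at hx
    have k1 := Fintype.linearIndependent_iff.1 β.linearIndependent (Sum.elim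
      ![2 * x 0 - a, fderiv ℂ κ 0 (tl m x) + 2 * x 0 + a, a] fun i : Fin m => x (Fin.succ i)) (by
        simp only [Fintype.sum_sum_type, Fin.sum_univ_three, Sum.elim_inl, Sum.elim_inr, b0, b1,
          b2, b3, Matrix.cons_val_zero, Matrix.cons_val_one, Matrix.cons_val]
        linear_combination (norm := module) (2 : ℂ) • hx)
    have k2 : a = 0 := k1 (.inl 2)
    have k3 : 2 * x 0 - a = 0 := k1 (.inl 0)
    refine ⟨k2, funext fun j => Fin.cases ?_ (fun i => k1 (.inr i)) j⟩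
    show x 0 = 0
    linear_combination (k3 + k2) / 2
  · have k1 := tl_v (m := m) 1
    rw [one_smul] at k1
    show fderiv ℂ (per p (rc k) (fun i => rc (e i)) κ) 0 (Pi.single 0 1) = _
    rw [per_fd κ0 (hκ 0 z3).1, k1]
    simp only [Pi.single_eq_same, Fin.succ_ne_zero, ne_eq, not_false_eq_true, Pi.single_eq_of_ne,
      zero_smul, Finset.sum_const_zero, map_zero]
    module

end Vale.Agent.P301Z.Df
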